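import Vale.Agent.P277.H884.S.Neg3

/-!
# P277, (WZD): the contradiction at the regular points
-/

open scoped Manifold ContDiff ComplexOrder Topology
open Vale.Agent.P272.K Vale.Agent.P285.H281.FD Vale.Agent.P267.H175 Set Metric Filter

noncomputable section

namespace Vale.Agent.P277.H884.W

open Vale.Agent.P277.TX Vale.Agent.P277.H19 Vale.Agent.P277.H371 Vale.Agent.P277.H884.S

/-- a coordinate ball is a covering with one sheet -/
theorem isCov_one {X : CSp} {ξ : Cm 4 → X.pt} {c : Cm 4} {r : ℝ} (hr : 0 < r)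
    (hop : ∀ W ⊆ ball c r, IsOpen W → IsOpen (ξ '' W))
    (hξ : ∀ z ∈ ball c r, ContinuousAt ξ z ∧
      ∀ f : X.pt → ℂ, X.Hol f (ξ z) ↔ AnalyticAt ℂ (f ∘ ξ) z)
    {G : X.pt → Cm 4} (hG : ∀ z ∈ ball c r, G (ξ z) = z) :
    IsCov X (ξ '' ball c r) G c r 1 (fun _ => 0) (fun _ => 1) := by
  have hξc : ContinuousOn ξ (ball c r) := fun z hz => (hξ z hz).1.continuousWithinAt
  have hGξ : ∀ x ∈ ξ '' ball c r, G x ∈ ball c r ∧ ξ (G x) = x := by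
    rintro _ ⟨z, hz, rfl⟩
    rw [hG z hz]
    exact ⟨hz, rfl⟩
  have hfib : ∀ z ∈ ball c r, {x | x ∈ ξ '' ball c r ∧ G x = z} = {ξ z} := by
    intro z hz
    ext x
    constructor
    · rintro ⟨hx, hxz⟩
      rw [mem_singleton_iff, ← hxz]
      exact (hGξ x hx).2.symm
    · rintro rfl
      exact ⟨⟨z, hz, rfl⟩, hG z hz⟩
  have hev : ∀ z ∈ ball c r, (G ∘ ξ) =ᶠ[𝓝 z] id := by
    intro z hz
    filter_upwards [isOpen_ball.mem_nhds hz] with w hw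
    exact hG w hw
  have hVo : IsOpen (ξ '' ball c r) := hop _ Subset.rfl isOpen_ball
  have hhol : ∀ x ∈ ξ '' ball c r, ∀ i, X.Hol (fun y => G y i) x := by
    rintro _ ⟨z, hz, rfl⟩ i
    rw [(hξ z hz).2]
    have h1 : AnalyticAt ℂ (fun w : Cm 4 => w i) z :=
      (ContinuousLinearMap.proj (R := ℂ) (φ := fun _ : Fin 4 => ℂ) i).analyticAt _
    refine h1.congr ?_
    filter_upwards [hev z hz] with w hw
    show w i = G (ξ w) i
    have : G (ξ w) = w := hw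
    rw [this]
  have hGc : ∀ z ∈ ball c r, ContinuousAt G (ξ z) := by
    intro z hz
    rw [ContinuousAt, hG z hz]
    intro U hU
    obtain ⟨W, hWU, hWo, hzW⟩ := _root_.mem_nhds_iff.1 (inter_mem hU (isOpen_ball.mem_nhds hz))
    rw [mem_map]
    refine mem_of_superset ((hop W (fun w hw => (hWU hw).2) hWo).mem_nhds ⟨z, hzW, rfl⟩) ?_
    rintro _ ⟨w, hw, rfl⟩
    show G (ξ w) ∈ U
    rw [hG w (hWU hw).2]
    exact (hWU hw).1
  refine ⟨hVo, hr, le_rfl, hhol, fun x hx => (hGξ x hx).1, ?_, ?_, ?_, ?_, ?_, ?_, ?_, ?_, ?_, ?_⟩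
  · intro r' hr'
    have h1 : {x | x ∈ ξ '' ball c r ∧ G x ∈ closedBall c r'} =
        ξ '' closedBall c r' := by
      ext x
      constructor
      · rintro ⟨hx, hx'⟩
        exact ⟨G x, hx', (hGξ x hx).2⟩
      · rintro ⟨z, hz, rfl⟩
        have hz' := closedBall_subset_ball hr' hz
        refine ⟨⟨z, hz', rfl⟩, ?_⟩
        rw [hG z hz']; exact hz
    rw [h1]
    exact (isCompact_closedBall _ _).image_of_continuousOn
      (hξc.mono (closedBall_subset_ball hr'))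
  · intro W hW hWo
    have h1 : G '' W = ball c r ∩ ξ ⁻¹' W := by
      ext z
      constructor
      · rintro ⟨x, hx, rfl⟩
        refine ⟨(hGξ x (hW hx)).1, ?_⟩
        rw [mem_preimage, (hGξ x (hW hx)).2]
        exact hx
      · rintro ⟨hz, hz'⟩
        exact ⟨ξ z, hz', hG z hz⟩
    rw [h1]
    exact hξc.isOpen_inter_preimage isOpen_ball hWo
  · intro z hz
    rw [hfib z hz]
    exact ⟨finite_singleton _, singleton_nonempty _⟩
  · rintro _ ⟨z, hz, rfl⟩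
    rw [(hξ z hz).2]
    exact analyticAt_const
  · exact fun z _ => analyticAt_const
  · intro z _ h
    exact one_ne_zero h.self_of_nhds
  · intro z hz _
    refine ⟨fun _ => ξ z, fun a b _ => Subsingleton.elim _ _, fun y => ?_⟩
    have h1 : y ∈ ξ '' ball c r ∧ G y = z ↔ y ∈ ({ξ z} : Set X.pt) := by
      rw [← hfib z hz]; rfl
    rw [h1, mem_singleton_iff]
    exact ⟨fun ⟨_, h⟩ => h.symm, fun h => ⟨0, h.symm⟩⟩
  · intro z hz _
    rw [hfib z hz]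
    exact subsingleton_singleton.injOn _
  · intro x hx _
    refine ⟨ξ '' ball c r, hVo, hx, Subset.rfl, ?_, fun _ _ => one_ne_zero, ?_⟩
    · intro a ha b hb hab
      rw [← (hGξ a ha).2, ← (hGξ b hb).2, hab]
    · rintro _ ⟨z, hz, rfl⟩ h
      rw [(hξ z hz).2, hG z hz]
      constructor
      · intro h1
        refine ⟨h ∘ ξ, h1, ?_⟩
        filter_upwards [hVo.mem_nhds ⟨z, hz, rfl⟩] with x hx
        show h x = h (ξ (G x))
        rw [(hGξ x hx).2]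
      · rintro ⟨g, hg, hgh⟩
        refine hg.congr ?_
        have h1 := (hξ z hz).1.eventually hgh
        filter_upwards [h1, hev z hz] with w hw hw'
        show g w = h (ξ w)
        rw [hw]
        show g w = g (G (ξ w))
        have : G (ξ w) = w := hw'
        rw [this]
  · intro h hh
    refine ⟨fun z => Polynomial.X - Polynomial.C (h (ξ z)), ?_, ?_, ?_⟩
    · intro z hz
      refine ⟨Polynomial.monic_X_sub_C _, Polynomial.natDegree_X_sub_C _, fun i => ?_⟩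
      simp only [Polynomial.coeff_sub, Polynomial.coeff_C]
      refine analyticAt_const.sub ?_
      split_ifs
      · exact ((hξ z hz).2 h).1 (hh _ ⟨z, hz, rfl⟩)
      · exact analyticAt_const
    · intro x hx
      show (Polynomial.X - Polynomial.C (h (ξ (G x)))).eval (h x) = 0
      rw [(hGξ x hx).2]
      simp
    · intro z hz _ x hx
      have h1 : x 0 ∈ ({ξ z} : Set X.pt) := by
        rw [← hfib z hz]
        exact (hx.2 (x 0)).1 ⟨0, rfl⟩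
      rw [mem_singleton_iff] at h1
      simp [h1]

section
variable {Y : Type} [TopologicalSpace Y] [ChartedSpace (Cm 4) Y] [IsManifold 𝓘(ℂ, Cm 4) ω Y]
  {χ : Chart 4 Y → Cm 4 → Matrix (Fin 4) (Fin 4) ℂ}

/-- functions on `Y`, pulled back by a branch -/
theorem branch_fun (hχ : IsKahler χ) {ρ : Cm 4 → Y} {x : Cm 4} (hρc : ContinuousAt ρ x)
    (hρa : ∀ e : Chart 4 Y, At e (ρ x) → AnalyticAt ℂ (fun z => e (ρ z)) x) {φ : Y → ℝ} {δ : ℝ}
    (h : ∀ e : Chart 4 Y, At e (ρ x) → ContDiffAt ℝ 2 (fun z => φ (e.symm z)) (e (ρ x)) ∧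
      (cHess (fun z => φ (e.symm z)) (e (ρ x)) + (δ : ℂ) • χ e (e (ρ x))).PosSemidef) :
    ContDiffAt ℝ 2 (fun z => φ (ρ z)) x ∧
      (cHess (fun z => φ (ρ z)) x + (δ : ℂ) • Hp χ ρ x).PosSemidef := by
  set e₁ : Chart 4 Y := chartAt (Cm 4) (ρ x) with he₁
  have he1 : At e₁ (ρ x) := at_chartAt _
  have hF : AnalyticAt ℂ (fun z => e₁ (ρ z)) x := hρa e₁ he1
  have hev : (fun z => φ (ρ z)) =ᶠ[𝓝 x] fun y => φ (e₁.symm (e₁ (ρ y))) := by
    filter_upwards [hρc.eventually_mem (e₁.open_source.mem_nhds he1.2)] with y h3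
    rw [e₁.left_inv h3]
  obtain ⟨hφs, hcurv⟩ := h e₁ he1
  have hFr : ContDiffAt ℝ 2 (fun z => e₁ (ρ z)) x :=
    ((hF.contDiffAt (n := ω)).restrict_scalars ℝ).of_le le_top
  have hφF : ContDiffAt ℝ 2 (fun y => φ (e₁.symm (e₁ (ρ y)))) x :=
    ContDiffAt.comp x (g := fun z => φ (e₁.symm z)) (f := fun z => e₁ (ρ z)) hφs hFr
  refine ⟨hφF.congr_of_eventuallyEq hev, ?_⟩
  rw [cHess_congr hev,
    cHess_comp (f := fun z => φ (e₁.symm z)) (τ := fun z => e₁ (ρ z)) hφs hF.contDiffAt,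
    Hp_eq hχ hρc he1 hF]
  have h2 := posSemidef_plk (h := fun _ => cHess (fun z => φ (e₁.symm z)) (e₁ (ρ x)) +
    (δ : ℂ) • χ e₁ (e₁ (ρ x))) (F := fun z => e₁ (ρ z)) (x := x) hcurv
  have h4 : plk (fun _ => cHess (fun z => φ (e₁.symm z)) (e₁ (ρ x)) +
      (δ : ℂ) • χ e₁ (e₁ (ρ x))) (fun z => e₁ (ρ z)) x =
      (jmat (fun z => e₁ (ρ z)) x).transpose *
        cHess (fun z => φ (e₁.symm z)) (e₁ (ρ x)) *
        (jmat (fun z => e₁ (ρ z)) x).map (starRingEnd ℂ) +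
      (δ : ℂ) • plk (χ e₁) (fun z => e₁ (ρ z)) x := by
    simp only [plk, Matrix.mul_add, Matrix.add_mul, Matrix.mul_smul, Matrix.smul_mul]
  rw [h4] at h2
  exact h2

end

/-- The contradiction for the places of the blow-ups of the surfaces in the regular locus (coordinates on
the ball with the centre `c`). -/
theorem core_regc {Y : Type} [TopologicalSpace Y] [T2Space Y] [CompactSpace Y]
    [ChartedSpace (Cm 4) Y] [IsManifold 𝓘(ℂ, Cm 4) ω Y]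
    {χ : Chart 4 Y → Cm 4 → Matrix (Fin 4) (Fin 4) ℂ} (hχ : IsKahler χ) {X : CSp} {O : Set Y}
    {v : Y → X.pt} (hv : IsOpenEmb X O v) (hO : DimLe X 2 (v '' O)ᶜ) {ξ : Cm 4 → X.pt} {c : Cm 4}
    {r : ℝ}
    (hr : 0 < r) (hinj : InjOn ξ (ball c r))
    (hop : ∀ W ⊆ ball c r, IsOpen W → IsOpen (ξ '' W))
    (hξ : ∀ z ∈ ball c r, ContinuousAt ξ z ∧
      ∀ f : X.pt → ℂ, X.Hol f (ξ z) ↔ AnalyticAt ℂ (f ∘ ξ) z)
    {w₁ : Cm 4} (h0 : w₁ 0 = 0) (hw₁ : bl w₁ ∈ ball c r) {γ : Cm 4 → Y}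
    {ch : Chart 4 Y} (hγ : ContinuousAt γ w₁) (hch : At ch (γ w₁))
    (han : AnalyticAt ℂ (fun w => ch (γ w)) w₁)
    (hlift : ∀ᶠ w in 𝓝 w₁, ξ (bl w) ∈ v '' O → γ w ∈ O ∧ v (γ w) = ξ (bl w)) {κ : ℝ}
    (hκ : 0 < κ)
    (hφ : ∀ δ : ℝ, 0 < δ → ∃ φ : Y → ℝ, (∀ y ∈ O, v y ∈ ξ '' ball c r → ∀ e : Chart 4 Y, At e y →
      ContDiffAt ℝ 2 (fun z => φ (e.symm z)) (e y) ∧
      (cHess (fun z => φ (e.symm z)) (e y) + (δ : ℂ) • χ e (e y)).PosSemidef) ∧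
      ∃ C, ∀ᶠ w in 𝓝 w₁, w 0 ≠ 0 → γ w ∈ O → κ * Real.log (1 / ‖w 0‖) - C ≤ φ (γ w)) :
    False := by
  obtain ⟨G, hG⟩ : ∃ G : X.pt → Cm 4, ∀ z ∈ ball c r, G (ξ z) = z :=
    ⟨Function.invFunOn ξ (ball c r), fun z hz => hinj.leftInvOn_invFunOn hz⟩
  have hc := isCov_one (X := X) hr hop hξ hG
  have hGξ : ∀ x ∈ ξ '' ball c r, ξ (G x) = x := by
    rintro _ ⟨z, hz, rfl⟩
    rw [hG z hz]
  set V : Set X.pt := ξ '' ball c r with hV
  have hthin := stThin Y X O v hv hO V G c r 1 _ _ hc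
  set E : Set (Cm 4) := G '' {x | x ∈ V ∧ ¬ ∃ y ∈ O, v y = x ∧ RankGe3 v G y} with hEdef
  obtain ⟨p1, p2, p3⟩ := H19.stPush Y χ hχ X O v hv V G c r 1 _ _ hc (G '' (V \ v '' O)) rfl
  have hsub : G '' (V \ v '' O) ⊆ E := by
    rintro _ ⟨x, ⟨hx, hx'⟩, rfl⟩
    refine ⟨x, ⟨hx, ?_⟩, rfl⟩
    rintro ⟨y, hy, hyx, -⟩
    exact hx' ⟨y, hy, hyx⟩
  have hsub' : ball c r \ E ⊆ ball c r \ G '' (V \ v '' O) := fun z hz =>
    ⟨hz.1, fun h => hz.2 (hsub h)⟩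
  have hOE : ∀ z, z ∉ E → ∀ x ∈ V, G x = z → x ∈ v '' O := by
    intro z hz x hx hxz
    by_contra hcon
    refine hz ⟨x, ⟨hx, ?_⟩, hxz⟩
    rintro ⟨y, hy, hyx, -⟩
    exact hcon ⟨y, hy, hyx⟩
  have hblb : ∀ᶠ w in 𝓝 w₁, bl w ∈ ball c r :=
    continuous_bl.continuousAt.eventually_mem (isOpen_ball.mem_nhds hw₁)
  have hpw : ∀ w : Cm 4, pw 1 w = bl w := by
    intro w
    funext i
    fin_cases i
    · show w 0 ^ 1 = w 0
      rw [pow_one]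
    · show w 1 * w 0 ^ 1 = w 0 * w 1
      rw [pow_one, mul_comm]
    · rfl
    · rfl
  have hvec : ∀ w : Cm 4, ![w 0 ^ 1, w 1, w 2, w 3] = w := by
    intro w
    funext i
    fin_cases i
    · show w 0 ^ 1 = w 0
      rw [pow_one]
    · rfl
    · rfl
    · rfl
  refine TD.stCoreX c r hr (fun _ => 1) hc.an hc.ne E hthin (pushH χ O v V G)
    (fun z hz hθz => p1 z (hsub' hz) hθz) (fun z hz => p2 z (hsub' hz))
    (fun a ha hac has i j k => p3 a ha hac (has.trans hsub') i j k) w₁ h0 hw₁ ?_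
    (Eventually.of_forall fun _ _ => one_ne_zero) κ hκ ?_
  · have e1 : ∀ _ : Fin 1, ∀ᶠ w in 𝓝 w₁, ContinuousAt (fun w => ξ (bl w)) w ∧ ξ (bl w) ∈ V ∧
        G (ξ (bl w)) = pw 1 w := by
      intro _
      filter_upwards [hblb] with w hw
      refine ⟨?_, ⟨bl w, hw, rfl⟩, ?_⟩
      · exact ContinuousAt.comp (g := ξ) (hξ _ hw).1 continuous_bl.continuousAt
      · rw [hG _ hw, hpw]
    have e2 : ∀ᶠ w in 𝓝 w₁, w 0 ≠ 0 → Enum V G ![w 0 ^ 1, w 1 * w 0 ^ 1, w 2, w 3]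
        (fun _ : Fin 1 => ξ (bl ![w 0 ^ (1 / 1), w 1, w 2, w 3])) := by
      filter_upwards [hblb] with w hw _
      have h1 : (![w 0 ^ 1, w 1 * w 0 ^ 1, w 2, w 3] : Cm 4) = bl w := hpw w
      rw [h1, Nat.div_self one_pos, hvec]
      refine ⟨fun a b _ => Subsingleton.elim _ _, fun y => ⟨?_, ?_⟩⟩
      · rintro ⟨-, rfl⟩
        exact ⟨⟨bl w, hw, rfl⟩, hG _ hw⟩
      · rintro ⟨hy, hyz⟩
        refine ⟨0, ?_⟩
        show ξ (bl w) = y
        rw [← hyz, hGξ y hy]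
    obtain ⟨C, hC⟩ := pushH_le (L := (⟨Unit, fun _ => univ, fun _ _ _ => 1⟩ : Bd X.pt))
      (M := (⟨Unit, fun _ => univ, fun _ _ _ => 1⟩ : Bd Y)) (m := 0) (Q := 0)
      (T := fun _ _ _ => 1) (i₀ := ()) (K := 0) (d := 1) (N := 1) (s := fun _ => 1)
      (φ := fun _ w => ξ (bl w)) (γ := fun _ => γ) (e := fun _ => ch) (μ := fun _ => ())
      (F := fun _ _ => 1) hχ hv hc.holo h0 le_rfl (fun _ => ⟨le_rfl, dvd_rfl⟩) e1 e2
      (fun _ => ⟨hγ, hch, mem_univ _, han, hlift, analyticAt_const,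
        Eventually.of_forall fun w _ => by simp⟩)
    refine ⟨C, ?_⟩
    filter_upwards [hC] with w h1 hw hwE _
    exact h1 hw (hOE _ hwE)
  · intro δ hδ
    obtain ⟨φ, hφ1, C, hφ2⟩ := hφ δ hδ
    set y₀ : Y := γ w₁ with hy₀
    have key : ∀ z ∈ ball c r \ E,
        ContDiffAt ℝ 2 (fun z => φ (hv.inv y₀ (ξ z))) z ∧
          (cHess (fun z => φ (hv.inv y₀ (ξ z))) z +
            (δ : ℂ) • pushH χ O v V G z).PosSemidef := by
      intro z hz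
      obtain ⟨D, ρb, hzD, hDs, hbr⟩ := exists_br hv hc hz.1 one_ne_zero (hOE z hz.2)
      have h1 : ∀ w ∈ D, hv.inv y₀ (ξ w) = ρb 0 w := by
        intro w hw
        obtain ⟨g1, g2, g3⟩ := hbr.mem w hw 0
        have h2 : v (ρb 0 w) = ξ w := by
          have h3 := hGξ _ g2
          rw [g3] at h3
          exact h3.symm
        rw [← h2]
        exact hv.inv_apply y₀ g1
      have h2 : (fun z => φ (hv.inv y₀ (ξ z))) =ᶠ[𝓝 z] fun z => φ (ρb 0 z) := by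
        filter_upwards [hbr.isOpen.mem_nhds hzD] with w hw
        rw [h1 w hw]
      obtain ⟨g1, g2, g3⟩ := hbr.mem z hzD 0
      obtain ⟨h3, h4⟩ := branch_fun hχ (hbr.cont z hzD 0) (hbr.an z hzD 0)
        (fun e he => hφ1 _ g1 g2 e he)
      refine ⟨h3.congr_of_eventuallyEq h2, ?_⟩
      rw [cHess_congr h2, hbr.pushH_eq χ hv hc.holo hzD, Fin.sum_univ_one]
      exact h4
    refine ⟨fun z => φ (hv.inv y₀ (ξ z)), fun z hz _ => key z hz, ?_, ?_⟩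
    · intro z hz
      refine ⟨φ (hv.inv y₀ (ξ z)) + 1, ?_⟩
      have h1 := (key z hz).1.continuousAt
      filter_upwards [h1.eventually_lt_const (lt_add_one _)] with w hw _
      exact hw.le
    · refine ⟨C, ?_⟩
      filter_upwards [hφ2, hlift, hblb] with w h1 h2 h3 hw hwE
      have h4 : ξ (bl w) ∈ v '' O := hOE _ hwE _ ⟨bl w, h3, rfl⟩ (hG _ h3)
      obtain ⟨h5, h6⟩ := h2 h4
      have h7 : hv.inv y₀ (ξ (bl w)) = γ w := by
        rw [← h6]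
        exact hv.inv_apply y₀ h5
      show κ * Real.log (1 / ‖w 0‖) - C ≤ φ (hv.inv y₀ (ξ (bl w)))
      rw [h7]
      exact h1 hw h5

/-- The contradiction for the places of the blow-ups of the surfaces in the regular locus. The function
is only needed near the point `bl w₁`. -/
theorem core_reg' {Y : Type} [TopologicalSpace Y] [T2Space Y] [CompactSpace Y]
    [ChartedSpace (Cm 4) Y] [IsManifold 𝓘(ℂ, Cm 4) ω Y]
    {χ : Chart 4 Y → Cm 4 → Matrix (Fin 4) (Fin 4) ℂ} (hχ : IsKahler χ) {X : CSp} {O : Set Y}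
    {v : Y → X.pt} (hv : IsOpenEmb X O v) (hO : DimLe X 2 (v '' O)ᶜ) {ξ : Cm 4 → X.pt} {r : ℝ}
    (hinj : InjOn ξ (ball 0 r))
    (hop : ∀ W ⊆ ball (0 : Cm 4) r, IsOpen W → IsOpen (ξ '' W))
    (hξ : ∀ z ∈ ball (0 : Cm 4) r, ContinuousAt ξ z ∧
      ∀ f : X.pt → ℂ, X.Hol f (ξ z) ↔ AnalyticAt ℂ (f ∘ ξ) z)
    {w₁ : Cm 4} (h0 : w₁ 0 = 0) (hw₁ : bl w₁ ∈ ball (0 : Cm 4) r) {r' : ℝ} (hr' : 0 < r')
    {γ : Cm 4 → Y}
    {ch : Chart 4 Y} (hγ : ContinuousAt γ w₁) (hch : At ch (γ w₁))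
    (han : AnalyticAt ℂ (fun w => ch (γ w)) w₁)
    (hlift : ∀ᶠ w in 𝓝 w₁, ξ (bl w) ∈ v '' O → γ w ∈ O ∧ v (γ w) = ξ (bl w)) {κ : ℝ}
    (hκ : 0 < κ)
    (hφ : ∀ δ : ℝ, 0 < δ → ∃ φ : Y → ℝ, (∀ y ∈ O, v y ∈ ξ '' ball (bl w₁) r' →
      ∀ e : Chart 4 Y, At e y → ContDiffAt ℝ 2 (fun z => φ (e.symm z)) (e y) ∧
      (cHess (fun z => φ (e.symm z)) (e y) + (δ : ℂ) • χ e (e y)).PosSemidef) ∧
      ∃ C, ∀ᶠ w in 𝓝 w₁, w 0 ≠ 0 → γ w ∈ O → κ * Real.log (1 / ‖w 0‖) - C ≤ φ (γ w)) :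
    False := by
  obtain ⟨s, hs, hsr⟩ := Metric.isOpen_iff.1 isOpen_ball _ hw₁
  have h1 : ball (bl w₁) (min s r') ⊆ ball (0 : Cm 4) r :=
    (ball_subset_ball (min_le_left _ _)).trans hsr
  have h2 : ball (bl w₁) (min s r') ⊆ ball (bl w₁) r' := ball_subset_ball (min_le_right _ _)
  have h3 : 0 < min s r' := lt_min hs hr'
  refine core_regc (c := bl w₁) (r := min s r') hχ hv hO h3 (hinj.mono h1)
    (fun W hW => hop W (hW.trans h1)) (fun z hz => hξ z (h1 hz)) h0 (mem_ball_self h3) hγ hch han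
    hlift hκ fun δ hδ => ?_
  obtain ⟨φ, g1, g2⟩ := hφ δ hδ
  exact ⟨φ, fun y hy hyv => g1 y hy (image_mono h2 hyv), g2⟩

/-- The contradiction for the places of the blow-ups of the surfaces in the regular locus. -/
theorem core_reg {Y : Type} [TopologicalSpace Y] [T2Space Y] [CompactSpace Y]
    [ChartedSpace (Cm 4) Y] [IsManifold 𝓘(ℂ, Cm 4) ω Y]
    {χ : Chart 4 Y → Cm 4 → Matrix (Fin 4) (Fin 4) ℂ} (hχ : IsKahler χ) {X : CSp} {O : Set Y}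
    {v : Y → X.pt} (hv : IsOpenEmb X O v) (hO : DimLe X 2 (v '' O)ᶜ) {ξ : Cm 4 → X.pt} {r : ℝ}
    (hr : 0 < r) (hinj : InjOn ξ (ball 0 r))
    (hop : ∀ W ⊆ ball (0 : Cm 4) r, IsOpen W → IsOpen (ξ '' W))
    (hξ : ∀ z ∈ ball (0 : Cm 4) r, ContinuousAt ξ z ∧
      ∀ f : X.pt → ℂ, X.Hol f (ξ z) ↔ AnalyticAt ℂ (f ∘ ξ) z)
    {w₁ : Cm 4} (h0 : w₁ 0 = 0) (hw₁ : bl w₁ ∈ ball (0 : Cm 4) r) {γ : Cm 4 → Y}
    {ch : Chart 4 Y} (hγ : ContinuousAt γ w₁) (hch : At ch (γ w₁))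
    (han : AnalyticAt ℂ (fun w => ch (γ w)) w₁)
    (hlift : ∀ᶠ w in 𝓝 w₁, ξ (bl w) ∈ v '' O → γ w ∈ O ∧ v (γ w) = ξ (bl w)) {κ : ℝ}
    (hκ : 0 < κ)
    (hφ : ∀ δ : ℝ, 0 < δ → ∃ φ : Y → ℝ, (∀ y ∈ O, v y ∈ ξ '' ball 0 r →
      ∀ e : Chart 4 Y, At e y → ContDiffAt ℝ 2 (fun z => φ (e.symm z)) (e y) ∧
      (cHess (fun z => φ (e.symm z)) (e y) + (δ : ℂ) • χ e (e y)).PosSemidef) ∧
      ∃ C, ∀ᶠ w in 𝓝 w₁, w 0 ≠ 0 → γ w ∈ O → κ * Real.log (1 / ‖w 0‖) - C ≤ φ (γ w)) :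
    False :=
  core_regc hχ hv hO hr hinj hop hξ h0 hw₁ hγ hch han hlift hκ hφ

end Vale.Agent.P277.H884.W
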