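import Vale.Agent.P277.H335.K.ChainK
import Vale.Agent.P277.H762.CL1

/-!
# P277, (WZD): the order of the comparison functions along a wedge
-/

open scoped Manifold ContDiff Topology
open Vale.Agent.P272.K Vale.Agent.P285.H281.FD Vale.Agent.P267.H175 Set Filter Metric

noncomputable section

namespace Vale.Agent.P277.H884.W

open Vale.Agent.P277 Vale.Agent.P277.T2 Vale.Agent.P277.H335 Vale.Agent.P277.H615
open Vale.Agent.P277.H335.KK

section

variable {Y : Type} [TopologicalSpace Y] [ChartedSpace (Cm 4) Y]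

/-- two local equations of a hypersurface differ by a unit -/
theorem leq_unit {G : Set Y} {y : Y} {ζ ζ' : Y → ℂ} (h : IsLEq G y ζ) (h' : IsLEq G y ζ')
    {ch : Chart 4 Y} (hch : At ch y) : ∃ U : Cm 4 → ℂ, AnalyticAt ℂ U (ch y) ∧ U (ch y) ≠ 0 ∧
      ∀ᶠ y' in 𝓝 y, ζ' y' = ζ y' * U (ch y') := by
  obtain ⟨ha, hd⟩ := h.2 ch hch
  obtain ⟨ha', hd'⟩ := h'.2 ch hch
  have hs : y ∈ ch.source := hch.2
  have hcc : ContinuousAt ch y := ch.continuousAt hs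
  have hsy : ch.symm (ch y) = y := ch.left_inv hs
  have hiff : ζ y = 0 ↔ ζ' y = 0 := by
    rw [h.1.self_of_nhds, h'.1.self_of_nhds]
  have hpull : ∀ {p : Cm 4 → Prop}, (∀ᶠ z in 𝓝 (ch y), p z) → ∀ᶠ y' in 𝓝 y, p (ch y') :=
    fun hp => hcc.eventually hp
  have hleft : ∀ᶠ y' in 𝓝 y, ch.symm (ch y') = y' := by
    filter_upwards [ch.open_source.mem_nhds hs] with y' hy'
    exact ch.left_inv hy'
  by_cases h0 : ζ y = 0
  · have h0' := hiff.1 h0
    have hz : ∀ᶠ z in 𝓝 (ch y), (fun z => ζ (ch.symm z)) z = 0 → (fun z => ζ' (ch.symm z)) z = 0 := by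
      have h1 : ContinuousAt ch.symm (ch y) :=
        ch.continuousAt_symm (ch.map_source hs)
      have h2 : ∀ᶠ y' in 𝓝 y, ζ y' = 0 → ζ' y' = 0 := by
        filter_upwards [h.1, h'.1] with y' g1 g2 g3
        exact g2.2 (g1.1 g3)
      rw [← hsy] at h2
      exact h1.eventually h2
    obtain ⟨U, hU, hU0, hUe⟩ := H762.exists_div_unit (n := 3) (V := Cm 4) (by simp) ha (hd h0)
      (by show ζ (ch.symm (ch y)) = 0; rw [hsy]; exact h0) ha' (hd' h0') hz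
    refine ⟨U, hU, hU0, ?_⟩
    filter_upwards [hpull hUe, hleft] with y' g1 g2
    rw [g2] at g1
    exact g1
  · have h0' : ζ' y ≠ 0 := fun h1 => h0 (hiff.2 h1)
    have h1 : (fun z => ζ (ch.symm z)) (ch y) ≠ 0 := by
      show ζ (ch.symm (ch y)) ≠ 0
      rw [hsy]; exact h0
    refine ⟨fun z => ζ' (ch.symm z) / ζ (ch.symm z), ha'.div ha h1, ?_, ?_⟩
    · show ζ' (ch.symm (ch y)) / ζ (ch.symm (ch y)) ≠ 0
      rw [hsy]
      exact div_ne_zero h0' h0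
    · have h2 : ∀ᶠ z in 𝓝 (ch y), ζ (ch.symm z) ≠ 0 := ha.continuousAt.eventually_ne h1
      filter_upwards [hpull h2, hleft] with y' g1 g2
      rw [g2] at g1
      show ζ' y' = ζ y' * (ζ' (ch.symm (ch y')) / ζ (ch.symm (ch y')))
      rw [g2]
      field_simp

end

section

variable {Y : Type} [TopologicalSpace Y] [ChartedSpace (Cm 4) Y] [IsManifold 𝓘(ℂ, Cm 4) ω Y]

/-- **[WZD-5]** the order of `t e` along a wedge is the order of the divisor `∑ l, n e l • G l` -/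
theorem ord_t {X : CSp} {K r : ℕ} {v : Y → X.pt} {L : Fin K → Bd X.pt} {R : Fin K → Bd Y}
    {G : Fin r → Set Y} {n : Fin K → Fin r → ℤ} {t : ∀ e, (L e).ι → (R e).ι → Y → ℂ}
    (ht : IsCmpV v L R G n t) {γ : Cm 4 → Y} {w₁ : Cm 4} (h0 : w₁ 0 = 0)
    (hγ : ContinuousAt γ w₁) {ch : Chart 4 Y} (hch : At ch (γ w₁))
    (han : AnalyticAt ℂ (fun w => ch (γ w)) w₁) {α : Fin r → ℝ} {b : ℝ}
    (hord : OrdG G α γ w₁ b) {a : ∀ e, (L e).ι} (ha : ∀ e, v (γ w₁) ∈ (L e).U (a e))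
    {m : ∀ e, (R e).ι} (hm : ∀ e, γ w₁ ∈ (R e).U (m e)) :
    ∃ μ : Fin r → ℕ, b = ∑ l, α l * μ l ∧
      ∀ e, HasOrd {w | γ w ∉ ⋃ l, G l} w₁ (fun w => t e (a e) (m e) (γ w))
        ((∑ l, n e l * μ l : ℤ) : ℚ) := by
  obtain ⟨ζ, μ, A, hζ, hA, hAf, hμA, hb⟩ := hord
  obtain ⟨ζ', hζ', hu⟩ := ht.div (γ w₁)
  choose U hU hU0 hUe using fun l => leq_unit (hζ l) (hζ' l) hch
  refine ⟨μ, hb, fun e => ?_⟩
  have hζne : ∀ l, ∀ᶠ w in 𝓝 w₁, w ∈ {w | γ w ∉ ⋃ l, G l} → w 0 ≠ 0 → ζ' l (γ w) ≠ 0 := by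
    intro l
    filter_upwards [hγ.eventually (hζ' l).1] with w hw hwO _ h0
    exact hwO (mem_iUnion.2 ⟨l, hw.1 h0⟩)
  have hUw : ∀ l, AnalyticAt ℂ (fun w => U l (ch (γ w))) w₁ := fun l =>
    (hU l).comp_of_eq han rfl
  have hμ : ∀ l, HasOrd {w | γ w ∉ ⋃ l, G l} w₁ (fun w => ζ' l (γ w)) (μ l : ℚ) := by
    intro l
    refine ⟨1, μ l, fun w => U l (ch (γ w)) * A l w, fun _ => 1, le_rfl, by simp,
      (hUw l).mul (hA l), analyticAt_const,
      freq_mul' h0 (hUw l) (hA l) (freq_one h0 (hUw l).continuousAt (hU0 l)) (hAf l),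
      freq_one h0 continuousAt_const one_ne_zero, ?_⟩
    filter_upwards [hμA l, hγ.eventually (hUe l)] with w g1 g2 _ _
    rw [one_mul, pow_one, g2, g1, zpow_natCast]
    ring
  obtain ⟨u, hu0, hua, htu⟩ := hu e (a e) (m e) (ha e) (hm e)
  have h1 : HasOrd {w | γ w ∉ ⋃ l, G l} w₁ (fun w => u (γ w)) 0 :=
    HasOrd.of_unit h0 (analyticAt_comp_chart hγ hch han (hua ch hch)) hu0
  have h2 := HasOrd.prod h0 Finset.univ fun l => (hμ l).zpow (hζne l) (n e l)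
  have h3 := h1.mul h0 h2
  have h4 : ((∑ l, n e l * μ l : ℤ) : ℚ) = 0 + ∑ l, (μ l : ℚ) * n e l := by
    push_cast
    rw [zero_add]
    exact Finset.sum_congr rfl fun l _ => mul_comm _ _
  rw [h4]
  refine h3.congr ?_
  filter_upwards [hγ.eventually htu] with w hw hwO _
  exact hw hwO

end

end Vale.Agent.P277.H884.W
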